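import Mathlib

/-!
A Lipschitz isomorphism from a space with the Radon-Nikodym property (in curve form) that is
Gateaux differentiable off a sigma-compact set gives a linear isomorphism.
-/

namespace Vale.Agent.Results.P124.EverywhereGateaux

open Filter Topology MeasureTheory Set
open scoped NNReal ENNReal

variable {X : Type*} {Y : Type*} [NormedAddCommGroup X] [NormedSpace ℝ X]
  [NormedAddCommGroup Y] [NormedSpace ℝ Y]

theorem finite_case [CompleteSpace X] [FiniteDimensional ℝ Y] (f : X → Y) (c C : ℝ≥0)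
    (hs : Function.Surjective f) (hl : LipschitzWith C f) (ha : AntilipschitzWith c⁻¹ f) :
    Nonempty (X ≃L[ℝ] Y) := by
  have hsur : Set.range f = univ := hs.range_eq
  have he : IsClosedEmbedding f := ha.isClosedEmbedding hl.uniformContinuous
  have : LocallyCompactSpace X := he.locallyCompactSpace
  have : FiniteDimensional ℝ X := FiniteDimensional.of_locallyCompactSpace ℝ
  have h1 : dimH (univ : Set Y) ≤ dimH (univ : Set X) := by
    rw [← hsur, ← image_univ]
    exact hl.dimH_image_le _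
  have h2 : dimH (univ : Set X) ≤ dimH (univ : Set Y) :=
    (ha.le_dimH_image univ).trans (dimH_mono (subset_univ _))
  rw [Real.dimH_univ_eq_finrank X, Real.dimH_univ_eq_finrank Y] at h1 h2
  norm_cast at h1 h2
  exact FiniteDimensional.nonempty_continuousLinearEquiv_of_finrank_eq (le_antisymm h2 h1)

theorem exists_avoid [CompleteSpace Y] (hY : ¬ FiniteDimensional ℝ Y) (A : ℕ → Set Y)
    (hA : ∀ n, IsCompact (A n)) (S : Set Y) (hS : IsCompact S) :
    ∃ z : Y, ∀ a ∈ S, ∀ n, z + a ∉ A n := by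
  by_contra h
  push Not at h
  let D : ℕ → Set Y := fun n => (fun p : Y × Y => p.1 - p.2) '' (A n ×ˢ S)
  have hD : ∀ n, IsCompact (D n) := fun n =>
    ((hA n).prod hS).image (continuous_fst.sub continuous_snd)
  have hU : ⋃ n, D n = univ := by
    refine eq_univ_of_forall fun z => ?_
    obtain ⟨a, ha, n, hn⟩ := h z
    exact mem_iUnion.2 ⟨n, (z + a, a), ⟨hn, ha⟩, by simp⟩
  obtain ⟨n, y, hy⟩ := nonempty_interior_of_iUnion_of_closed (fun n => (hD n).isClosed) hU
  obtain ⟨r, hr, hsub⟩ := Metric.nhds_basis_closedBall.mem_iff.1 (mem_interior_iff_mem_nhds.1 hy)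
  exact hY (FiniteDimensional.of_isCompact_closedBall ℝ hr
    ((hD n).of_isClosed_subset Metric.isClosed_closedBall hsub))

theorem map_update (ν : Measure ℝ) [IsProbabilityMeasure ν] (k : ℕ) :
    ((Measure.infinitePi fun _ : ℕ => ν).prod ν).map
      (fun p : (ℕ → ℝ) × ℝ => Function.update p.1 k p.2) = Measure.infinitePi fun _ : ℕ => ν := by
  classical
  refine Measure.eq_infinitePi _ fun s t ht => ?_
  have hm : Measurable fun p : (ℕ → ℝ) × ℝ => Function.update p.1 k p.2 := by fun_prop
  rw [Measure.map_apply hm (MeasurableSet.pi s.countable_toSet fun i _ => ht i)]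
  by_cases hk : k ∈ s
  · have h : (fun p : (ℕ → ℝ) × ℝ => Function.update p.1 k p.2) ⁻¹' Set.pi s t
        = Set.pi (s.erase k : Finset ℕ) t ×ˢ t k := by
      ext ⟨a, b⟩
      simp only [mem_preimage, Set.mem_pi, Finset.mem_coe, mem_prod, Finset.mem_erase]
      constructor
      · intro H
        exact ⟨fun i hi => by simpa [Function.update_of_ne hi.1] using H i hi.2,
          by simpa using H k hk⟩
      · intro H i hi
        by_cases hik : i = k
        · subst hik; simpa using H.2
        · simpa [Function.update_of_ne hik] using H.1 i ⟨hik, hi⟩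
    rw [h, Measure.prod_prod, Measure.infinitePi_pi _ (fun i _ => ht i),
      Finset.prod_erase_mul _ _ hk]
  · have h : (fun p : (ℕ → ℝ) × ℝ => Function.update p.1 k p.2) ⁻¹' Set.pi s t
        = Set.pi s t ×ˢ univ := by
      ext ⟨a, b⟩
      simp only [mem_preimage, Set.mem_pi, Finset.mem_coe, mem_prod, mem_univ, and_true]
      refine forall₂_congr fun i hi => ?_
      have : i ≠ k := fun e => hk (e ▸ hi)
      simp [Function.update_of_ne this]
    rw [h, Measure.prod_prod, Measure.infinitePi_pi _ (fun i _ => ht i), measure_univ, mul_one]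

theorem exists_good_point [CompleteSpace X] [CompleteSpace Y] [TopologicalSpace.SeparableSpace Y]
    (hRNP : ∀ γ : ℝ → X, (∃ K, LipschitzWith K γ) → ∀ᵐ t : ℝ, DifferentiableAt ℝ γ t)
    (hY : ¬ FiniteDimensional ℝ Y) (g : Y → X) {L : ℝ≥0} (hg : LipschitzWith L g)
    (w : ℕ → Y) (hw : Summable fun k => ‖w k‖) (A : ℕ → Set Y) (hA : ∀ n, IsCompact (A n)) :
    ∃ y : Y, (∀ n, y ∉ A n) ∧ ∀ k, DifferentiableAt ℝ (fun r : ℝ => g (y + r • w k)) 0 := by
  classical
  borelize Y
  have : SecondCountableTopology Y := UniformSpace.secondCountable_of_separable Y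
  let cl : ℝ → ℝ := fun x => max 0 (min x 1)
  have hcl : Continuous cl := by fun_prop
  have hcl0 : ∀ x, |cl x| ≤ 1 := fun x => by
    simp only [cl]; rw [abs_le]; constructor <;> simp
  have hcl1 : ∀ x ∈ Icc (0 : ℝ) 1, cl x = x := fun x hx => by
    simp [cl, min_eq_left hx.2, max_eq_right hx.1]
  have hbd : ∀ j (s : ℕ → ℝ), ‖cl (s j) • w j‖ ≤ ‖w j‖ := fun j s => by
    rw [norm_smul, Real.norm_eq_abs]
    exact mul_le_of_le_one_left (norm_nonneg _) (hcl0 _)
  let Φ : (ℕ → ℝ) → Y := fun s => ∑' j, cl (s j) • w j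
  have hΦ : Continuous Φ :=
    continuous_tsum (fun j => (hcl.comp (continuous_apply j)).smul continuous_const) hw hbd
  have hS : IsCompact (range Φ) := by
    have : range Φ = Φ '' (Set.pi univ fun _ : ℕ => Icc (0 : ℝ) 1) := by
      refine Subset.antisymm ?_ (image_subset_range _ _)
      rintro _ ⟨s, rfl⟩
      refine ⟨fun j => cl (s j), fun j _ => ⟨by simp [cl], by simp [cl]⟩, ?_⟩
      refine tsum_congr fun j => ?_
      rw [hcl1 (cl (s j)) ⟨by simp [cl], by simp [cl]⟩]
    rw [this]
    exact (isCompact_univ_pi fun _ => isCompact_Icc).image hΦ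
  obtain ⟨z, hz⟩ := exists_avoid hY A hA _ hS
  let ν : Measure ℝ := volume.restrict (Icc (0 : ℝ) 1)
  have : IsProbabilityMeasure ν := ⟨by simp [ν]⟩
  let μ : Measure (ℕ → ℝ) := Measure.infinitePi fun _ : ℕ => ν
  suffices ∀ᵐ s ∂μ, ∀ k, DifferentiableAt ℝ (fun r : ℝ => g (z + Φ s + r • w k)) 0 by
    obtain ⟨s, hs⟩ := this.exists
    exact ⟨z + Φ s, fun n => hz _ ⟨s, rfl⟩ n, hs⟩
  rw [ae_all_iff]
  intro k
  have hc : Continuous (Function.uncurry fun (y : Y) (r : ℝ) => g (y + r • w k)) :=
    hg.continuous.comp (continuous_fst.add (continuous_snd.smul continuous_const))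
  have hG : MeasurableSet {y : Y | DifferentiableAt ℝ (fun r : ℝ => g (y + r • w k)) 0} :=
    (measurableSet_of_differentiableAt_with_param ℝ hc).preimage
      (measurable_id.prodMk measurable_const (f := fun y : Y => y))
  have hB : MeasurableSet {s : ℕ → ℝ |
      DifferentiableAt ℝ (fun r : ℝ => g (z + Φ s + r • w k)) 0} :=
    hG.preimage (hΦ.const_add z).measurable
  rw [ae_iff]
  have hm : Measurable fun p : (ℕ → ℝ) × ℝ => Function.update p.1 k p.2 := by fun_prop
  change μ {s | DifferentiableAt ℝ (fun r : ℝ => g (z + Φ s + r • w k)) 0}ᶜ = 0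
  rw [show μ = (μ.prod ν).map fun p : (ℕ → ℝ) × ℝ => Function.update p.1 k p.2 from
    (map_update ν k).symm, Measure.map_apply hm hB.compl, Measure.prod_apply (hm hB.compl)]
  refine lintegral_eq_zero_of_ae_eq_zero (ae_of_all _ fun s => ?_)
  simp only [Pi.zero_apply]
  let b : Y := z + Φ (Function.update s k 0)
  have hγ : ∀ᵐ t : ℝ, DifferentiableAt ℝ (fun r : ℝ => g (b + r • w k)) t :=
    hRNP _ ⟨L * ‖w k‖₊, LipschitzWith.of_dist_le_mul fun p q => by
      have := hg.dist_le_mul (b + p • w k) (b + q • w k)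
      rw [dist_add_left, dist_eq_norm (p • w k), ← sub_smul, norm_smul] at this
      calc _ ≤ _ := this
        _ = _ := by rw [dist_eq_norm p q]; push_cast; ring⟩
  have hlin : ∀ t ∈ Icc (0 : ℝ) 1, Φ (Function.update s k t)
      = Φ (Function.update s k 0) + t • w k := by
    intro t ht
    have hsum : ∀ t, Summable fun j => cl (Function.update s k t j) • w j := fun t =>
      Summable.of_norm_bounded hw fun j => hbd j _
    simp only [Φ]
    rw [(hsum t).tsum_eq_add_tsum_ite k, (hsum 0).tsum_eq_add_tsum_ite k]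
    simp only [Function.update_self, hcl1 t ht, hcl1 0 ⟨le_rfl, zero_le_one⟩, zero_smul, zero_add]
    rw [add_comm]
    congr 1
    refine tsum_congr fun j => ?_
    split
    · rfl
    · next h => simp [Function.update_of_ne h]
  have hγ' : ∀ᵐ t ∂ν, DifferentiableAt ℝ (fun r : ℝ => g (b + r • w k)) t ∧ t ∈ Icc (0 : ℝ) 1 :=
    (ae_restrict_of_ae hγ).and (ae_restrict_mem measurableSet_Icc)
  refine measure_mono_null ?_ (ae_iff.1 hγ')
  intro t ht hgood
  refine ht ?_
  simp only [mem_ofPred_eq, hlin t hgood.2]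
  have h1 : (fun r : ℝ => g (z + (Φ (Function.update s k 0) + t • w k) + r • w k))
      = fun r : ℝ => (fun q : ℝ => g (b + q • w k)) (t + r) := by
    funext r
    simp only [b, add_smul]
    congr 1
    abel
  rw [h1]
  exact DifferentiableAt.comp (g := fun q : ℝ => g (b + q • w k)) (0 : ℝ) (by simpa using hgood.1)
    ((differentiableAt_id (𝕜 := ℝ)).const_add t)

theorem norm_deriv_ge (f : X → Y) (c : ℝ) (hf : ∀ x x', c * ‖x - x'‖ ≤ ‖f x - f x'‖)
    (x v : X) (u : Y) (h : HasDerivAt (fun t : ℝ => f (x + t • v)) u 0) : c * ‖v‖ ≤ ‖u‖ := by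
  have h' := (hasDerivAt_iff_tendsto_slope.1 h).norm
  refine ge_of_tendsto h' ?_
  filter_upwards [self_mem_nhdsWithin] with t ht
  have ht0 : (t : ℝ) ≠ 0 := ht
  have := hf (x + t • v) (x + (0 : ℝ) • v)
  rw [add_sub_add_left_eq_sub, ← sub_smul, sub_zero, norm_smul, Real.norm_eq_abs] at this
  rw [slope_def_module, sub_zero, norm_smul, norm_inv, Real.norm_eq_abs, le_inv_mul_iff₀
    (abs_pos.2 ht0)]
  linarith

theorem deriv_comp_eq (f : X → Y) {C : ℝ≥0} (hf : LipschitzWith C f) (γ : ℝ → X) (v : X)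
    (y w u : Y) (hγ : HasDerivAt γ v 0) (hfγ : ∀ r, f (γ r) = y + r • w)
    (h : HasDerivAt (fun t : ℝ => f (γ 0 + t • v)) u 0) : u = w := by
  have h1 : HasDerivAt (fun r : ℝ => f (γ 0 + r • v) - f (γ r)) (u - w) 0 := by
    have h2 : HasDerivAt (fun r : ℝ => f (γ r)) w 0 := by
      simp only [hfγ]
      simpa using ((hasDerivAt_id (0 : ℝ)).smul_const w).const_add y
    exact h.sub h2
  have h0 : HasDerivAt (fun r : ℝ => f (γ 0 + r • v) - f (γ r)) 0 0 := by
    rw [hasDerivAt_iff_isLittleO]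
    refine Asymptotics.IsBigO.trans_isLittleO ?_ (hasDerivAt_iff_isLittleO.1 hγ)
    refine Asymptotics.IsBigO.of_bound C (Eventually.of_forall fun r => ?_)
    simp only [zero_smul, add_zero, sub_self, sub_zero, smul_zero]
    refine (hf.norm_sub_le _ _).trans_eq ?_
    rw [← norm_neg]
    congr 2
    abel
  exact sub_eq_zero.1 (h1.unique h0)

theorem result : ∀ (X Y : Type*) [NormedAddCommGroup X] [NormedSpace ℝ X] [CompleteSpace X]
    [NormedAddCommGroup Y] [NormedSpace ℝ Y] [CompleteSpace Y] [TopologicalSpace.SeparableSpace Y],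
    (∀ γ : ℝ → X, (∃ K, LipschitzWith K γ) → ∀ᵐ t : ℝ, DifferentiableAt ℝ γ t) →
    ∀ (f : X → Y) (c C : ℝ), 0 < c → Function.Surjective f →
    (∀ x x', c * ‖x - x'‖ ≤ ‖f x - f x'‖ ∧ ‖f x - f x'‖ ≤ C * ‖x - x'‖) →
    ∀ K : ℕ → Set X, (∀ n, IsCompact (K n)) →
    (∀ x, (∀ n, x ∉ K n) →
      ∃ T : X →L[ℝ] Y, ∀ v, HasDerivAt (fun t : ℝ => f (x + t • v)) (T v) 0) →
    Nonempty (X ≃L[ℝ] Y) := by
  intro X Y _ _ _ _ _ _ _ hRNP f c C hc hs hf K hK hG
  have hl : LipschitzWith C.toNNReal f := LipschitzWith.of_dist_le_mul fun a b => by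
    simp only [dist_eq_norm]
    exact (hf a b).2.trans (mul_le_mul_of_nonneg_right (Real.le_coe_toNNReal C) (norm_nonneg _))
  have ha : AntilipschitzWith (c.toNNReal)⁻¹ f := AntilipschitzWith.of_le_mul_dist fun a b => by
    simp only [dist_eq_norm, NNReal.coe_inv, Real.coe_toNNReal c hc.le]
    rw [le_inv_mul_iff₀ hc]
    exact (hf a b).1
  by_cases hY : FiniteDimensional ℝ Y
  · exact finite_case f c.toNNReal C.toNNReal hs hl ha
  · let g := Function.surjInv hs
    have hfg : ∀ y, f (g y) = y := Function.surjInv_eq hs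
    have hg : LipschitzWith (c.toNNReal)⁻¹ g := ha.to_rightInverse hfg
    let ξ := TopologicalSpace.denseSeq Y
    let a : ℕ → ℝ := fun k => (1 / 2) ^ k / (1 + ‖ξ k‖)
    have ha0 : ∀ k, 0 < a k := fun k => by positivity
    have hw : Summable fun k => ‖a k • ξ k‖ := by
      refine Summable.of_nonneg_of_le (fun k => norm_nonneg _) (fun k => ?_) summable_geometric_two
      rw [norm_smul, Real.norm_of_nonneg (ha0 k).le, div_mul_eq_mul_div,
        div_le_iff₀ (by positivity)]
      exact mul_le_mul_of_nonneg_left (by linarith [norm_nonneg (ξ k)]) (by positivity)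
    obtain ⟨y, hy, hd⟩ := exists_good_point hRNP hY g hg (fun k => a k • ξ k) hw
      (fun n => f '' K n) (fun n => (hK n).image hl.continuous)
    obtain ⟨T, hT⟩ := hG (g y) fun n hn => hy n ⟨g y, hn, hfg y⟩
    have hTw : ∀ k, ∃ v, T v = a k • ξ k := fun k => by
      obtain ⟨v, hv⟩ : ∃ v, HasDerivAt (fun r : ℝ => g (y + r • (a k • ξ k))) v 0 :=
        ⟨_, (hd k).hasDerivAt⟩
      exact ⟨v, deriv_comp_eq f hl _ v y _ _ hv (fun r => hfg _) (by simpa using hT v)⟩
    have hbT : ∀ v, c * ‖v‖ ≤ ‖T v‖ := fun v =>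
      norm_deriv_ge f c (fun x x' => (hf x x').1) _ v _ (hT v)
    have hTa : AntilipschitzWith (c.toNNReal)⁻¹ T := T.antilipschitz_of_bound fun v => by
      simp only [NNReal.coe_inv, Real.coe_toNNReal c hc.le]
      rw [le_inv_mul_iff₀ hc]
      exact hbT v
    have hsurj : Function.Surjective T := by
      intro u
      have hcl : IsClosed (range T) := hTa.isClosed_range T.uniformContinuous
      have hsub : range ξ ⊆ range T := by
        rintro _ ⟨k, rfl⟩
        obtain ⟨v, hv⟩ := hTw k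
        exact ⟨(a k)⁻¹ • v, by rw [map_smul, hv, inv_smul_smul₀ (ha0 k).ne']⟩
      have hden : DenseRange ξ := TopologicalSpace.denseRange_denseSeq Y
      have := closure_minimal hsub hcl
      rw [hden.closure_range] at this
      exact this (mem_univ u)
    exact ⟨ContinuousLinearEquiv.ofBijective T (LinearMap.ker_eq_bot.2 hTa.injective)
      (LinearMap.range_eq_top.2 hsurj)⟩

end Vale.Agent.Results.P124.EverywhereGateaux
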